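import Mathlib

/-!
# Mod-2 measures on finite sets (P318, section 4 of the text of helper937)

A mod-2 measure on a finite type `X` is a function `μ : X → ZMod 2`; `sz μ` is the size of its
support, `push f μ` its push-forward, `pr μ v` the pairing with a function.
-/

open Finset

namespace Vale.Agent.P318.H770

variable {X Y Z : Type*} [Fintype X] [Fintype Y] [Fintype Z] [DecidableEq X] [DecidableEq Y]
  [DecidableEq Z]

/-- Push-forward of a mod-2 measure. -/
def push {X Y : Type*} [Fintype X] [DecidableEq Y] (f : X → Y) (μ : X → ZMod 2) : Y → ZMod 2 :=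
  fun y => ∑ x with f x = y, μ x

/-- The support of a mod-2 measure. -/
def sup {X : Type*} [Fintype X] (μ : X → ZMod 2) : Finset X := univ.filter fun x => μ x ≠ 0

/-- The size of the support. -/
def sz {X : Type*} [Fintype X] (μ : X → ZMod 2) : ℕ := (sup μ).card

/-- The pairing of a mod-2 measure with a function. -/
def pr {X : Type*} [Fintype X] (μ v : X → ZMod 2) : ZMod 2 := ∑ x, μ x * v x

omit [DecidableEq X] in
@[simp] lemma mem_sup {μ : X → ZMod 2} {x : X} : x ∈ sup μ ↔ μ x ≠ 0 := by simp [sup]

lemma zmod2_cases (a : ZMod 2) : a = 0 ∨ a = 1 := by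
  revert a; decide

omit [DecidableEq X] in
lemma ne_zero_iff_one {a : ZMod 2} : a ≠ 0 ↔ a = 1 := by
  revert a; decide

omit [DecidableEq X] in
@[simp] lemma sz_eq_zero {μ : X → ZMod 2} : sz μ = 0 ↔ μ = 0 := by
  unfold sz sup
  rw [card_eq_zero, filter_eq_empty_iff]
  constructor
  · intro h
    funext x
    simpa using h (mem_univ x)
  · rintro rfl x _
    simp

omit [DecidableEq X] in
@[simp] lemma sz_zero : sz (0 : X → ZMod 2) = 0 := sz_eq_zero.2 rfl

omit [DecidableEq X] in
lemma sz_add_le (μ ν : X → ZMod 2) : sz (μ + ν) ≤ sz μ + sz ν := by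
  classical
  unfold sz
  refine (card_le_card ?_).trans (card_union_le _ _)
  intro x hx
  rw [mem_union, mem_sup, mem_sup]
  rw [mem_sup, Pi.add_apply] at hx
  by_contra h
  push Not at h
  rw [h.1, h.2, add_zero] at hx
  exact hx rfl

omit [Fintype Y] [DecidableEq X] in
lemma push_add (f : X → Y) (μ ν : X → ZMod 2) : push f (μ + ν) = push f μ + push f ν := by
  funext y
  simp [push, sum_add_distrib]

omit [Fintype Y] [DecidableEq X] in
@[simp] lemma push_zero (f : X → Y) : push f (0 : X → ZMod 2) = 0 := by
  funext y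
  simp [push]

omit [Fintype Z] [DecidableEq X] in
lemma push_push (f : X → Y) (g : Y → Z) (μ : X → ZMod 2) :
    push g (push f μ) = push (g ∘ f) μ := by
  funext z
  unfold push
  rw [← sum_fiberwise_of_maps_to (s := univ.filter fun x => (g ∘ f) x = z)
    (t := univ.filter fun y => g y = z) (g := f) (fun x hx => by simpa using hx)]
  refine sum_congr rfl fun y hy => ?_
  refine sum_congr ?_ fun _ _ => rfl
  ext x
  simp only [mem_filter, mem_univ, true_and, Function.comp_apply] at hy ⊢
  constructor
  · rintro rfl; exact ⟨hy, rfl⟩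
  · exact fun h => h.2

omit [DecidableEq Y] in
lemma push_id (μ : X → ZMod 2) : push id μ = μ := by
  funext x
  unfold push
  rw [sum_eq_single x]
  · intro b hb hbx
    exact absurd (mem_filter.1 hb).2 hbx
  · intro h
    exact absurd (mem_filter.2 ⟨mem_univ x, rfl⟩ : x ∈ univ.filter fun y => id y = x) h

omit [DecidableEq X] in
lemma sup_push_subset (f : X → Y) (μ : X → ZMod 2) : sup (push f μ) ⊆ (sup μ).image f := by
  intro y hy
  rw [mem_sup] at hy
  by_contra h
  apply hy
  unfold push
  refine sum_eq_zero fun x hx => ?_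
  by_contra hx0
  exact h (mem_image.2 ⟨x, mem_sup.2 hx0, (mem_filter.1 hx).2⟩)

omit [DecidableEq X] in
lemma sz_push_le (f : X → Y) (μ : X → ZMod 2) : sz (push f μ) ≤ sz μ :=
  (card_le_card (sup_push_subset f μ)).trans card_image_le

omit [DecidableEq X] in
lemma pr_push (f : X → Y) (μ : X → ZMod 2) (v : Y → ZMod 2) :
    pr (push f μ) v = pr μ (v ∘ f) := by
  unfold pr push
  simp_rw [sum_mul]
  rw [← sum_fiberwise_of_maps_to (s := (univ : Finset X)) (t := (univ : Finset Y)) (g := f)
    (fun x _ => mem_univ _)]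
  refine sum_congr rfl fun y _ => sum_congr rfl fun x hx => ?_
  rw [Function.comp_apply, (mem_filter.1 hx).2]

omit [DecidableEq X] in
lemma pr_add_left (μ ν v : X → ZMod 2) : pr (μ + ν) v = pr μ v + pr ν v := by
  simp [pr, add_mul, sum_add_distrib]

omit [DecidableEq X] in
lemma pr_add_right (μ v w : X → ZMod 2) : pr μ (v + w) = pr μ v + pr μ w := by
  simp [pr, mul_add, sum_add_distrib]

lemma add_self_zmod2 (a : ZMod 2) : a + a = 0 := by revert a; decide

omit [Fintype X] [DecidableEq X] in
lemma add_self_meas (μ : X → ZMod 2) : μ + μ = 0 := by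
  funext x; exact add_self_zmod2 _

omit [Fintype X] [DecidableEq X] in
lemma eq_of_add_eq_zero {μ ν : X → ZMod 2} (h : μ + ν = 0) : μ = ν := by
  funext x
  have hx := congrFun h x
  simp only [Pi.add_apply, Pi.zero_apply] at hx
  revert hx
  generalize μ x = a
  generalize ν x = b
  revert a b
  decide

omit [Fintype Y] [DecidableEq X] in
/-- An element of the support which is alone in its fibre survives the push-forward. -/
lemma push_of_isolated (f : X → Y) (μ : X → ZMod 2) {x : X} (hx : μ x ≠ 0)
    (h : ∀ x', μ x' ≠ 0 → f x' = f x → x' = x) : push f μ (f x) ≠ 0 := by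
  unfold push
  rw [sum_eq_single x]
  · exact hx
  · intro b hb hbx
    by_contra hb0
    exact hbx (h b hb0 (mem_filter.1 hb).2)
  · intro hx'
    exact absurd (mem_filter.2 ⟨mem_univ x, rfl⟩ : x ∈ univ.filter fun y => f y = f x) hx'

/-- The elements of `U` alone in their fibre of `f`. -/
noncomputable def iso {X Y : Type*} (f : X → Y) (U : Finset X) : Finset X :=
  open Classical in U.filter fun x => ∀ x' ∈ U, f x' = f x → x' = x

lemma mem_iso {X Y : Type*} {f : X → Y} {U : Finset X} {x : X} :
    x ∈ iso f U ↔ x ∈ U ∧ ∀ x' ∈ U, f x' = f x → x' = x := by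
  classical
  unfold iso
  rw [mem_filter]

omit [Fintype X] [Fintype Y] in
/-- `2 |f(U)| ≤ |U| + #isolated`. -/
lemma two_mul_card_image_le (f : X → Y) (U : Finset X) :
    2 * (U.image f).card ≤ U.card + (iso f U).card := by
  have h1 : (iso f U).card = ((iso f U).image f).card := by
    rw [card_image_of_injOn]
    intro a ha b hb hab
    exact (mem_iso.1 hb).2 a (mem_iso.1 ha).1 hab
  have h2 : U.card = ∑ y ∈ U.image f, (U.filter fun x => f x = y).card :=
    card_eq_sum_card_image f U
  have h3 : ∑ y ∈ U.image f, 2 ≤ ∑ y ∈ U.image f, ((U.filter fun x => f x = y).card +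
      if y ∈ (iso f U).image f then 1 else 0) := by
    refine sum_le_sum fun y hy => ?_
    obtain ⟨x, hx, rfl⟩ := mem_image.1 hy
    split_ifs with h
    · have : 0 < (U.filter fun x' => f x' = f x).card := card_pos.2 ⟨x, by simp [hx]⟩
      omega
    · have h4 : x ∉ iso f U := fun h' => h (mem_image_of_mem f h')
      have h5 : ∃ x' ∈ U, f x' = f x ∧ x' ≠ x := by
        by_contra hcon
        push Not at hcon
        exact h4 (mem_iso.2 ⟨hx, hcon⟩)
      obtain ⟨x', hx', hfx, hne⟩ := h5
      have : 1 < (U.filter fun x'' => f x'' = f x).card :=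
        one_lt_card.2 ⟨x', by simp [hx', hfx], x, by simp [hx], hne⟩
      omega
  rw [sum_const, smul_eq_mul, sum_add_distrib, ← h2, ← card_filter] at h3
  have h6 : ((U.image f).filter fun y => y ∈ (iso f U).image f).card ≤
      ((iso f U).image f).card := card_le_card fun y hy => (mem_filter.1 hy).2
  omega

omit [DecidableEq X] in
/-- The push-forward is at least as large as the number of isolated elements. -/
lemma card_iso_le_sz_push (f : X → Y) (μ : X → ZMod 2) :
    (iso f (sup μ)).card ≤ sz (push f μ) := by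
  have h1 : (iso f (sup μ)).card = ((iso f (sup μ)).image f).card := by
    rw [card_image_of_injOn]
    intro a ha b hb hab
    exact (mem_iso.1 hb).2 a (mem_iso.1 ha).1 hab
  rw [h1]
  refine card_le_card fun y hy => ?_
  obtain ⟨x, hx, rfl⟩ := mem_image.1 hy
  have hx' := mem_iso.1 hx
  rw [mem_sup]
  exact push_of_isolated f μ (mem_sup.1 hx'.1) fun x' hx'' h => hx'.2 x' (mem_sup.2 hx'') h

end Vale.Agent.P318.H770
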