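import Vale.Agent.P318.H770.SpecTree

/-!
# The extension property of two operators on disjoint pairs of slots (P318, section 7)
-/

open Finset

set_option linter.unusedSectionVars false

namespace Vale.Agent.P318.H770

open Vale.Agent.P318.Op Vale.Agent.P318.Vec Vale.Agent.P318.H937

variable {κ : Type} [Fintype κ] [DecidableEq κ] {n1 : ℕ} [NeZero n1] {Sd : Type} [Fintype Sd]
  [DecidableEq Sd]

/-- The condensers with seeds in `Z`, as one linear map. -/
def CZ (E : Sd → EE n1) (Z : Finset Sd) :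
    (Fin n1 × Fin n1 → ZMod 2) →ₗ[ZMod 2] (Sd → Fin n1 → ZMod 2) :=
  LinearMap.pi fun z => if z ∈ Z then E z else 0

lemma CZ_apply (E : Sd → EE n1) (Z : Finset Sd) (f : Fin n1 × Fin n1 → ZMod 2) (z : Sd)
    (i : Fin n1) : CZ E Z f z i = if z ∈ Z then E z f i else 0 := by
  unfold CZ
  rw [LinearMap.pi_apply]
  split_ifs <;> rfl

/-- The slices at the slot `l` (index `0` at `r`) of the members of a family. -/
def WW (l r : κ) (Z : Finset Sd) (p : Sd → XX κ n1) (j : κ → Fin n1) : Sd → Fin n1 → ZMod 2 :=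
  fun z i => if z ∈ Z then p z (set2 l r j (i, 0)) else 0

/-- A functional applied to all slices. -/
def TT (l r : κ) (Z : Finset Sd) (ψ : (Sd → Fin n1 → ZMod 2) →ₗ[ZMod 2] ZMod 2)
    (p : Sd → XX κ n1) : XX κ n1 := fun j => ψ (WW l r Z p j)

lemma opl_TT {l r l' r' : κ} (h1 : l ≠ l') (h2 : l ≠ r') (h3 : r ≠ l') (h4 : r ≠ r')
    (Z : Finset Sd) (ψ : (Sd → Fin n1 → ZMod 2) →ₗ[ZMod 2] ZMod 2) (p : Sd → XX κ n1)
    (E' : EE n1) :
    opl l' r' E' (TT l r Z ψ p) = TT l r Z ψ (fun z => opl l' r' E' (p z)) := by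
  funext j
  have e1 : ∀ q : Fin n1 × Fin n1, set2 l r j q r' = j r' := by
    intro q; simp [set2, h2.symm, h4.symm]
  have e2 : ∀ q : Fin n1 × Fin n1, set2 l r j q l' = j l' := by
    intro q; simp [set2, h1.symm, h3.symm]
  rw [opl_apply]
  by_cases hr : j r' = 0
  · rw [if_pos hr, E_expand]
    have h5 : WW l r Z (fun z => opl l' r' E' (p z)) j =
        ∑ q, (E' (Pi.single q 1) (j l')) • WW l r Z p (set2 l' r' j q) := by
      funext z i
      rw [Finset.sum_apply, Finset.sum_apply]
      simp only [Pi.smul_apply, smul_eq_mul]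
      unfold WW
      by_cases hz : z ∈ Z
      · simp only [if_pos hz]
        rw [opl_apply, e1, if_pos hr, e2, E_expand]
        refine Finset.sum_congr rfl fun q _ => ?_
        rw [slc_apply, set2_comm l r l' r' h1 h2 h3 h4]
        ring
      · simp [hz]
    unfold TT
    rw [h5, map_sum]
    refine Finset.sum_congr rfl fun q _ => ?_
    rw [map_smul, slc_apply, smul_eq_mul]
    ring
  · rw [if_neg hr]
    have h5 : WW l r Z (fun z => opl l' r' E' (p z)) j = 0 := by
      funext z i
      unfold WW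
      beta_reduce
      rw [opl_apply, e1, if_neg hr]
      simp
    unfold TT
    rw [h5, map_zero]

/-- The part of a function with nonzero index at `r`. -/
def DD (r : κ) (x : XX κ n1) : XX κ n1 := fun j => if j r ≠ 0 then x j else 0

lemma opl_DD {r l' r' : κ} (h3 : r ≠ l') (h4 : r ≠ r') (x : XX κ n1) (E' : EE n1) :
    opl l' r' E' (DD r x) = DD r (opl l' r' E' x) := by
  funext j
  have e3 : ∀ q : Fin n1 × Fin n1, set2 l' r' j q r = j r := by
    intro q; simp [set2, h3, h4]
  unfold DD
  by_cases hj : j r ≠ 0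
  · rw [if_pos hj, opl_apply, opl_apply]
    have h5 : slc l' r' (fun j : κ → Fin n1 => if j r ≠ 0 then x j else 0) j =
        slc l' r' x j := by
      funext q
      rw [slc_apply, slc_apply, e3, if_pos hj]
    rw [h5]
  · rw [if_neg hj, opl_apply]
    have h5 : slc l' r' (fun j : κ → Fin n1 => if j r ≠ 0 then x j else 0) j = 0 := by
      funext q
      rw [slc_apply, e3, if_neg hj, Pi.zero_apply]
    rw [h5, map_zero, Pi.zero_apply, ite_self]

/-- The extension property. -/
theorem oplExt : OplExt := by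
  intro κ _ _ n1 _ Sd _ _ E n hkill l r l' r' hlr hlr' h1 h2 h3 h4 Z p GB hGB h
  -- the members of the family have index `0` at `r`
  have c1 : ∀ z ∈ Z, ∀ j : κ → Fin n1, j r ≠ 0 → p z j = 0 := by
    intro z hz j hj
    by_contra hne
    have h5 : DD r (p z) ≠ 0 := by
      intro h0
      have h6 := congrFun h0 j
      unfold DD at h6
      rw [if_pos hj] at h6
      exact hne h6
    refine absurd (hkill l' r' hlr' (DD r (p z)) h5 GB fun b hb => ?_) (not_lt.2 hGB)
    obtain ⟨q, hq⟩ := h b hb
    rw [opl_DD h3 h4, ← hq z hz]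
    funext j'
    unfold DD
    by_cases hj' : j' r ≠ 0
    · rw [if_pos hj', opl_apply, if_neg hj', Pi.zero_apply]
    · rw [if_neg hj', Pi.zero_apply]
  -- the slices lie in the range of the condensers
  have c2 : ∀ j : κ → Fin n1, ∃ g, CZ E Z g = WW l r Z p j := by
    intro j
    by_contra hcon
    have h5 : WW l r Z p j ∉ LinearMap.range (CZ E Z) := fun ⟨g, hg⟩ => hcon ⟨g, hg⟩
    obtain ⟨ψ, hψ1, hψ2⟩ := Submodule.exists_le_ker_of_notMem h5
    have h6 : TT l r Z ψ p ≠ 0 := fun h0 => hψ1 (congrFun h0 j)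
    refine absurd (hkill l' r' hlr' _ h6 GB fun b hb => ?_) (not_lt.2 hGB)
    obtain ⟨q, hq⟩ := h b hb
    rw [opl_TT h1 h2 h3 h4]
    funext j'
    have h7 : WW l r Z (fun z => opl l' r' (E b) (p z)) j' = CZ E Z (slc l r q j') := by
      funext z i
      rw [CZ_apply]
      unfold WW
      by_cases hz : z ∈ Z
      · rw [if_pos hz, if_pos hz]
        beta_reduce
        rw [← hq z hz, opl_apply, set2_r, if_pos rfl, set2_l l r hlr, slc_set2 l r hlr]
      · rw [if_neg hz, if_neg hz]
    unfold TT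
    rw [h7]
    exact hψ2 ⟨_, rfl⟩
  choose g hg using c2
  -- glue the preimages
  let G : (κ → Fin n1) → Fin n1 × Fin n1 → ZMod 2 := fun j => g (set2 l r j (0, 0))
  let u : XX κ n1 := fun j => G j (j l, j r)
  have hu : ∀ j : κ → Fin n1, slc l r u j = G j := by
    intro j
    funext q
    rw [slc_apply]
    change g (set2 l r (set2 l r j q) (0, 0)) (set2 l r j q l, set2 l r j q r) = _
    rw [set2_set2 l r hlr, set2_l l r hlr, set2_r]
  refine ⟨u, fun z hz => ?_⟩
  funext j
  rw [opl_apply]
  by_cases hj : j r = 0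
  · rw [if_pos hj, hu]
    have h8 := congrFun (congrFun (hg (set2 l r j (0, 0))) z) (j l)
    rw [CZ_apply, if_pos hz] at h8
    change E z (g (set2 l r j (0, 0))) (j l) = _
    rw [h8]
    unfold WW
    rw [if_pos hz, set2_set2 l r hlr]
    congr 1
    have h9 := set2_self l r j
    rw [hj] at h9
    exact h9
  · rw [if_neg hj, c1 z hz j hj]

/-- `SpecTREE`. -/
theorem spec_tree : SpecTREE := specTREE_of_ext oplExt

end Vale.Agent.P318.H770
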