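import Mathlib

/-!
# Combinatorics of the complete binary tree (P318, section 7)

Slots are words of length `L` over `Bool`, nodes are pairs (level `h`, prefix of length `h`)
where the prefix is stored as a slot which is `false` from the level on.  The node `v` works on
the two slots `lft v` and `rgt v`.
-/

open Finset

namespace Vale.Agent.P318.H770

/-- Slots. -/
abbrev Sl (L : ℕ) : Type := Fin L → Bool

/-- Nodes: a level `p.1` and a prefix `p.2`. -/
abbrev Nd (L : ℕ) : Type := {p : Fin L × Sl L // ∀ i, p.1 ≤ i → p.2 i = false}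

variable {L : ℕ}

/-- The level of a node (the root has level `0`). -/
def lev (v : Nd L) : Fin L := v.1.1

/-- The left slot of a node. -/
def lft (v : Nd L) : Sl L := v.1.2

/-- The right slot of a node. -/
def rgt (v : Nd L) : Sl L := Function.update v.1.2 v.1.1 true

/-- `below v w`: the node `v` lies strictly below the node `w`. -/
def below (v w : Nd L) : Prop := lev w < lev v ∧ ∀ i, i < lev w → lft v i = lft w i

instance : DecidableRel (below (L := L)) := fun v w => by
  unfold below; infer_instance

lemma lft_of_le (v : Nd L) {i : Fin L} (h : lev v ≤ i) : lft v i = false := v.2 i h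

lemma rgt_lev (v : Nd L) : rgt v (lev v) = true := by simp [rgt, lev]

lemma rgt_of_ne (v : Nd L) {i : Fin L} (h : i ≠ lev v) : rgt v i = lft v i := by
  unfold rgt lft lev at *
  rw [Function.update_of_ne h]

lemma nd_ext {v w : Nd L} (h1 : lev v = lev w) (h2 : lft v = lft w) : v = w :=
  Subtype.ext (Prod.ext h1 h2)

lemma nd_ext' {v w : Nd L} (h1 : lev v = lev w) (h2 : ∀ i, i < lev w → lft v i = lft w i) :
    v = w := by
  refine nd_ext h1 (funext fun i => ?_)
  rcases lt_or_ge i (lev w) with h | h
  · exact h2 i h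
  · rw [lft_of_le w h, lft_of_le v (h1 ▸ h)]

lemma below_lev {v w : Nd L} (h : below v w) : lev w < lev v := h.1

lemma below_irrefl (v : Nd L) : ¬ below v v := fun h => lt_irrefl _ h.1

lemma below_ne {v w : Nd L} (h : below v w) : v ≠ w := by
  rintro rfl
  exact below_irrefl _ h

lemma below_trans {u v w : Nd L} (h1 : below u v) (h2 : below v w) : below u w :=
  ⟨h2.1.trans h1.1, fun i hi => (h1.2 i (hi.trans h2.1)).trans (h2.2 i hi)⟩

lemma below_asymm {v w : Nd L} (h : below v w) : ¬ below w v := fun h' =>
  lt_asymm h.1 h'.1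

/-- Two nodes above a common node are comparable. -/
lemma below_forest {u v w : Nd L} (h1 : below u v) (h2 : below u w) :
    below v w ∨ v = w ∨ below w v := by
  rcases lt_trichotomy (lev v) (lev w) with h | h | h
  · exact Or.inr (Or.inr ⟨h, fun i hi => (h2.2 i (hi.trans h)).symm.trans (h1.2 i hi)⟩)
  · refine Or.inr (Or.inl (nd_ext' h fun i hi => ?_))
    exact (h1.2 i (h ▸ hi)).symm.trans (h2.2 i hi)
  · exact Or.inl ⟨h, fun i hi => (h1.2 i (hi.trans h)).symm.trans (h2.2 i hi)⟩

lemma lft_ne_rgt (v : Nd L) : lft v ≠ rgt v := by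
  intro h
  have h1 := congrFun h (lev v)
  rw [lft_of_le v le_rfl, rgt_lev] at h1
  exact Bool.false_ne_true h1

lemma lft_of_lt (v : Nd L) {i : Fin L} (h : i < lev v) : rgt v i = lft v i :=
  rgt_of_ne v h.ne

/-- Incomparable nodes work on disjoint pairs of slots. -/
lemma slots_disjoint_aux {v w : Nd L} (h1 : ¬ below w v) (h : v ≠ w) (hl : lev v ≤ lev w) :
    ∃ i, i < lev v ∧ lft w i ≠ lft v i := by
  by_contra hcon
  push Not at hcon
  rcases hl.lt_or_eq with hlt | heq
  · exact h1 ⟨hlt, hcon⟩
  · exact h (nd_ext' heq fun i hi => (hcon i (heq ▸ hi)).symm)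

lemma slots_ne_aux {v w : Nd L} (h1 : ¬ below w v) (h : v ≠ w) (hl : lev v ≤ lev w) :
    lft v ≠ lft w ∧ lft v ≠ rgt w ∧ rgt v ≠ lft w ∧ rgt v ≠ rgt w := by
  obtain ⟨i, hi, hne⟩ := slots_disjoint_aux h1 h hl
  have hv := lft_of_lt v hi
  have hw := lft_of_lt w (hi.trans_le hl)
  refine ⟨fun he => hne (congrFun he i).symm, fun he => hne ?_, fun he => hne ?_,
    fun he => hne ?_⟩
  · rw [← hw, ← he]
  · rw [← hv, ← he]
  · rw [← hw, ← hv, ← he]

/-- Incomparable nodes work on disjoint pairs of slots. -/
lemma slots_ne {v w : Nd L} (h1 : ¬ below v w) (h2 : ¬ below w v) (h : v ≠ w) :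
    lft v ≠ lft w ∧ lft v ≠ rgt w ∧ rgt v ≠ lft w ∧ rgt v ≠ rgt w := by
  rcases le_total (lev v) (lev w) with hl | hl
  · exact slots_ne_aux h2 h hl
  · obtain ⟨a, b, c, d⟩ := slots_ne_aux h1 h.symm hl
    exact ⟨a.symm, c.symm, b.symm, d.symm⟩

/-- The right slot of `v` is the left slot of `w` only if `w` is below `v`. -/
lemma below_of_rgt_eq_lft {v w : Nd L} (h : rgt v = lft w) : below w v := by
  have hlt : lev v < lev w := by
    by_contra hcon
    have h1 := lft_of_le w (not_lt.1 hcon)
    rw [← h, rgt_lev] at h1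
    exact Bool.false_ne_true h1.symm
  refine ⟨hlt, fun i hi => ?_⟩
  rw [← h, lft_of_lt v hi]

lemma rgt_injective : Function.Injective (rgt (L := L)) := by
  intro v w h
  have key : ∀ v w : Nd L, rgt v = rgt w → lev w ≤ lev v := by
    intro v w h
    by_contra hcon
    push Not at hcon
    have h1 := congrFun h (lev w)
    rw [rgt_lev, rgt_of_ne v hcon.ne', lft_of_le v hcon.le] at h1
    exact Bool.false_ne_true h1
  have hl : lev v = lev w := le_antisymm (key w v h.symm) (key v w h)
  refine nd_ext' hl fun i hi => ?_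
  rw [← lft_of_lt w hi, ← lft_of_lt v (hl ▸ hi), h]

/-- The slot of the root. -/
def zeroSl : Sl L := fun _ => false

lemma rgt_ne_zero (v : Nd L) : rgt v ≠ zeroSl := by
  intro h
  have h1 := congrFun h (lev v)
  rw [rgt_lev] at h1
  exact Bool.false_ne_true h1.symm

lemma exists_rgt_eq {c : Sl L} (hc : c ≠ zeroSl) : ∃ v : Nd L, rgt v = c := by
  have h1 : (univ.filter fun i => c i = true).Nonempty := by
    by_contra hcon
    rw [not_nonempty_iff_eq_empty, filter_eq_empty_iff] at hcon
    refine hc (funext fun i => ?_)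
    simpa [zeroSl] using hcon (mem_univ i)
  set h := (univ.filter fun i => c i = true).max' h1 with hh
  have h2 : c h = true := (mem_filter.1 (max'_mem _ h1)).2
  have h3 : ∀ i, h < i → c i = false := by
    intro i hi
    by_contra hcon
    have h4 : i ∈ univ.filter fun i => c i = true := by simpa using hcon
    exact absurd (le_max' _ i h4) (not_le.2 hi)
  refine ⟨⟨(h, Function.update c h false), fun i hi => ?_⟩, ?_⟩
  · rcases hi.lt_or_eq with hi | hi
    · simp only at hi ⊢
      rw [Function.update_of_ne hi.ne', h3 i hi]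
    · simp only at hi ⊢
      rw [← hi, Function.update_self]
  · unfold rgt
    simp only [Function.update_idem]
    rw [← h2, Function.update_eq_self]

lemma card_nd : Fintype.card (Nd L) = 2 ^ L - 1 := by
  have h1 : Fintype.card (Nd L) = (univ.erase (zeroSl (L := L))).card := by
    rw [← card_univ, ← card_image_of_injective univ (rgt_injective (L := L))]
    congr 1
    ext c
    simp only [mem_image, mem_univ, true_and, mem_erase, and_true]
    constructor
    · rintro ⟨v, rfl⟩
      exact rgt_ne_zero v
    · exact exists_rgt_eq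
  rw [h1, card_erase_of_mem (mem_univ _), card_univ]
  simp

/-! ### Up-closed sets -/

/-- A set of nodes which contains everything above its elements. -/
def UpClosed (R : Finset (Nd L)) : Prop := ∀ v ∈ R, ∀ w, below v w → w ∈ R

/-- The minimal elements of a set of nodes. -/
def mins (R : Finset (Nd L)) : Finset (Nd L) := R.filter fun v => ∀ u ∈ R, ¬ below u v

/-- The nodes `≥ a`. -/
def up (a : Nd L) : Finset (Nd L) := univ.filter fun w => w = a ∨ below a w

lemma mem_up {a w : Nd L} : w ∈ up a ↔ w = a ∨ below a w := by simp [up]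

lemma self_mem_up (a : Nd L) : a ∈ up a := mem_up.2 (Or.inl rfl)

lemma mem_mins {R : Finset (Nd L)} {v : Nd L} :
    v ∈ mins R ↔ v ∈ R ∧ ∀ u ∈ R, ¬ below u v := by simp [mins]

lemma upClosed_up (a : Nd L) : UpClosed (up a) := by
  intro v hv w hw
  rcases mem_up.1 hv with rfl | h
  · exact mem_up.2 (Or.inr hw)
  · exact mem_up.2 (Or.inr (below_trans h hw))

lemma mins_up (a : Nd L) : mins (up a) = {a} := by
  ext v
  rw [mem_mins, mem_singleton, mem_up]
  constructor
  · rintro ⟨h | h, h2⟩
    · exact h
    · exact absurd h (h2 a (self_mem_up a))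
  · rintro rfl
    refine ⟨Or.inl rfl, fun u hu h => ?_⟩
    rcases mem_up.1 hu with rfl | h'
    · exact below_irrefl _ h
    · exact below_asymm h h'

lemma upClosed_union {R S : Finset (Nd L)} (hR : UpClosed R) (hS : UpClosed S) :
    UpClosed (R ∪ S) := by
  intro v hv w hw
  rcases mem_union.1 hv with h | h
  · exact mem_union_left _ (hR v h w hw)
  · exact mem_union_right _ (hS v h w hw)

/-- Every element lies above a minimal one. -/
lemma exists_min {R : Finset (Nd L)} {v : Nd L} (hv : v ∈ R) :
    ∃ u ∈ mins R, v ∈ up u := by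
  have h1 : (R.filter fun u => v ∈ up u).Nonempty :=
    ⟨v, mem_filter.2 ⟨hv, self_mem_up v⟩⟩
  obtain ⟨u, hu, hmax⟩ := exists_max_image _ (fun u => lev u) h1
  rw [mem_filter] at hu
  refine ⟨u, mem_mins.2 ⟨hu.1, fun t ht htu => ?_⟩, hu.2⟩
  have h2 : t ∈ R.filter fun u => v ∈ up u := by
    refine mem_filter.2 ⟨ht, mem_up.2 (Or.inr ?_)⟩
    rcases mem_up.1 hu.2 with rfl | h
    · exact htu
    · exact below_trans htu h
  exact absurd (hmax t h2) (not_le.2 htu.1)

/-- An up-closed set is the union of the root paths of its minimal elements. -/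
lemma eq_biUnion_up {R : Finset (Nd L)} (hR : UpClosed R) : R = (mins R).biUnion up := by
  ext v
  rw [mem_biUnion]
  constructor
  · exact fun hv => exists_min hv
  · rintro ⟨u, hu, hv⟩
    rcases mem_up.1 hv with rfl | h
    · exact (mem_mins.1 hu).1
    · exact hR u (mem_mins.1 hu).1 v h

/-- The level is injective on a root path. -/
lemma lev_injOn_up (a : Nd L) : Set.InjOn (lev (L := L)) (up a) := by
  intro v hv w hw h
  have hv' := mem_up.1 (mem_coe.1 hv)
  have hw' := mem_up.1 (mem_coe.1 hw)
  have key : ∀ v, (v = a ∨ below a v) → ∀ i, i < lev v → lft a i = lft v i := by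
    rintro v (rfl | hv) i hi
    · rfl
    · exact hv.2 i hi
  refine nd_ext' h fun i hi => ?_
  rw [← key v hv' i (h ▸ hi), ← key w hw' i hi]

lemma card_up_le (a : Nd L) : (up a).card ≤ L := by
  rw [← card_image_of_injOn (lev_injOn_up a)]
  exact (card_le_univ _).trans (by simp)

/-- An up-closed set with at most `k` minimal elements has at most `k L` elements. -/
lemma card_le_of_mins {R : Finset (Nd L)} (hR : UpClosed R) {k : ℕ} (hk : (mins R).card ≤ k) :
    R.card ≤ k * L := by
  rw [eq_biUnion_up hR]
  refine card_biUnion_le.trans ?_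
  refine (sum_le_sum fun a _ => card_up_le a).trans ?_
  rw [sum_const, smul_eq_mul]
  exact Nat.mul_le_mul_right _ hk

instance : DecidablePred (UpClosed (L := L)) := fun R => by
  unfold UpClosed; infer_instance

/-- The up-closed sets with at most two minimal elements. -/
abbrev Views (L : ℕ) : Type := {R : Finset (Nd L) // UpClosed R ∧ (mins R).card ≤ 2}

lemma card_two_subsets_le {α : Type*} [Fintype α] [DecidableEq α] :
    (univ.filter fun s : Finset α => s.card ≤ 2).card ≤ (Fintype.card α + 1) ^ 2 := by
  have h1 : (univ.filter fun s : Finset α => s.card ≤ 2) ⊆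
      (univ : Finset (Option α × Option α)).image
        fun p => (p.1.toFinset ∪ p.2.toFinset) := by
    intro s hs
    rw [mem_filter] at hs
    rw [mem_image]
    have h2 : s.card = 0 ∨ s.card = 1 ∨ s.card = 2 := by omega
    rcases h2 with h2 | h2 | h2
    · rw [card_eq_zero] at h2
      exact ⟨(none, none), mem_univ _, by simp [h2]⟩
    · obtain ⟨a, rfl⟩ := card_eq_one.1 h2
      exact ⟨(some a, none), mem_univ _, by simp⟩
    · obtain ⟨a, b, -, rfl⟩ := card_eq_two.1 h2
      exact ⟨(some a, some b), mem_univ _, by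
        ext x; simp [Option.toFinset]⟩
  refine (card_le_card h1).trans (card_image_le.trans ?_)
  rw [card_univ, Fintype.card_prod, Fintype.card_option, sq]

/-- There are at most `4 ^ L` such sets. -/
lemma card_views_le : Fintype.card (Views L) ≤ 4 ^ L := by
  have h1 : Fintype.card (Views L) ≤
      (univ.filter fun s : Finset (Nd L) => s.card ≤ 2).card := by
    rw [← card_univ]
    refine card_le_card_of_injOn (fun R => mins R.1) (fun R _ => ?_) ?_
    · simpa using R.2.2
    · intro R _ S _ h
      refine Subtype.ext ?_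
      rw [eq_biUnion_up R.2.1, eq_biUnion_up S.2.1, show mins R.1 = mins S.1 from h]
  refine h1.trans (card_two_subsets_le.trans ?_)
  rw [card_nd, Nat.sub_add_cancel Nat.one_le_two_pow, ← pow_mul, mul_comm, pow_mul]
  norm_num

/-! ### Topological numbering -/

/-- A numbering of a finite type which is monotone for a given rank function. -/
lemma exists_equiv_fin {α : Type*} [Fintype α] [DecidableEq α] (f : α → ℕ) :
    ∃ e : α ≃ Fin (Fintype.card α), ∀ a b, f a < f b → e a < e b := by
  classical
  let N := Fintype.card α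
  let e0 : α ≃ Fin N := Fintype.equivFin α
  let φ : α → ℕ := fun a => f a * N + e0 a
  have hlt : ∀ a b, f a < f b → φ a < φ b := by
    intro a b h
    have ha := (e0 a).2
    have h1 : (f a + 1) * N ≤ f b * N := Nat.mul_le_mul_right _ h
    change f a * N + (e0 a : ℕ) < f b * N + (e0 b : ℕ)
    rw [add_mul, one_mul] at h1
    omega
  have hφ : Function.Injective φ := by
    intro a b h
    rcases lt_trichotomy (f a) (f b) with h1 | h1 | h1
    · exact absurd h (hlt a b h1).ne
    · change f a * N + (e0 a : ℕ) = f b * N + (e0 b : ℕ) at h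
      rw [h1] at h
      exact e0.injective (Fin.ext (by omega))
    · exact absurd h (hlt b a h1).ne'
  have hcard : (univ.image φ).card = N := by
    rw [card_image_of_injective _ hφ, card_univ]
  let o := (univ.image φ).orderIsoOfFin hcard
  let e1 : α ≃ (univ.image φ : Finset ℕ) := Equiv.ofBijective
    (fun a => ⟨φ a, mem_image_of_mem φ (mem_univ a)⟩) ⟨fun a b h => hφ (Subtype.ext_iff.1 h),
      fun y => by
        obtain ⟨a, -, ha⟩ := mem_image.1 y.2
        exact ⟨a, Subtype.ext ha⟩⟩
  refine ⟨e1.trans o.symm.toEquiv, fun a b h => ?_⟩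
  change o.symm (e1 a) < o.symm (e1 b)
  rw [o.symm.lt_iff_lt]
  exact hlt a b h

/-- The nodes can be numbered such that children come before their parents. -/
lemma exists_numbering (L : ℕ) :
    ∃ e : Nd L ≃ Fin (Fintype.card (Nd L)), ∀ v w, below v w → e v < e w := by
  obtain ⟨e, he⟩ := exists_equiv_fin (fun v : Nd L => L - (lev v : ℕ))
  refine ⟨e, fun v w h => he v w ?_⟩
  have h1 : (lev w : ℕ) < lev v := h.1
  have h2 : (lev v : ℕ) < L := (lev v).2
  omega

end Vale.Agent.P318.H770
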