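import Vale.Agent.P318.H664.Op
import Vale.Agent.P318.H770.Tree
import Vale.Agent.P318.H937.Defs

/-!
# The node system of the tree (P318, section 7)

Everything of `SpecTREE` except the extension property, which is a hypothesis here.
-/

open Finset

set_option linter.unusedSectionVars false

namespace Vale.Agent.P318.H770

open Vale.Agent.P318.Op Vale.Agent.P318.Vec Vale.Agent.P318.H937

variable {L n1 : ℕ} [NeZero n1] {Sd : Type} {κ : Type} [Fintype κ] [DecidableEq κ]

/-- The nodes can be numbered such that children come before their parents. -/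
lemma exists_numbering' (L : ℕ) :
    ∃ e : Nd L ≃ Fin (2 ^ L - 1), ∀ v w, below v w → e v < e w := by
  obtain ⟨e, he⟩ := exists_numbering L
  refine ⟨e.trans (finCongr card_nd), fun v w h => ?_⟩
  exact he v w h

/-- The node system: the operator of a node acts on its two slots. -/
def treeSys (ε : Sl L ≃ κ) (e : Nd L ≃ Fin (2 ^ L - 1))
    (he : ∀ v w, below v w → e v < e w) (E : Sd → EE n1) :
    NodeSys (XX κ n1) (2 ^ L - 1) Sd where
  anc v := univ.filter fun w => below (e.symm v) (e.symm w)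
  anc_gt v w h := by
    have h1 := he _ _ (mem_filter.1 h).2
    rwa [e.apply_symm_apply, e.apply_symm_apply] at h1
  anc_trans v w u h1 h2 :=
    mem_filter.2 ⟨mem_univ _, below_trans (mem_filter.1 h1).2 (mem_filter.1 h2).2⟩
  anc_chain v w u h1 h2 := by
    rcases below_forest (mem_filter.1 h1).2 (mem_filter.1 h2).2 with h | h | h
    · exact Or.inr (Or.inr (mem_filter.2 ⟨mem_univ _, h⟩))
    · exact Or.inl (e.symm.injective h)
    · exact Or.inr (Or.inl (mem_filter.2 ⟨mem_univ _, h⟩))
  op v a := opl (ε (lft (e.symm v))) (ε (rgt (e.symm v))) (E a)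
  comm v w hvw h1 h2 a b x := by
    have h3 : ¬ below (e.symm w) (e.symm v) := fun h => h1 (mem_filter.2 ⟨mem_univ _, h⟩)
    have h4 : ¬ below (e.symm v) (e.symm w) := fun h => h2 (mem_filter.2 ⟨mem_univ _, h⟩)
    have h5 : e.symm v ≠ e.symm w := fun h => hvw (e.symm.injective h)
    obtain ⟨ha, hb, hc, hd⟩ := slots_ne h4 h3 h5
    exact opl_comm _ _ _ _ (ε.injective.ne ha) (ε.injective.ne hb)
      (ε.injective.ne hc) (ε.injective.ne hd) (E a) (E b) x

section

variable (ε : Sl L ≃ κ) (e : Nd L ≃ Fin (2 ^ L - 1))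
    (he : ∀ v w, below v w → e v < e w) (E : Sd → EE n1)

lemma mem_anc {v w : Fin (2 ^ L - 1)} :
    w ∈ (treeSys ε e he E).anc v ↔ below (e.symm v) (e.symm w) := by
  simp [treeSys]

lemma op_eq (v : Fin (2 ^ L - 1)) (a : Sd) (x : XX κ n1) :
    (treeSys ε e he E).op v a x =
      opl (ε (lft (e.symm v))) (ε (rgt (e.symm v))) (E a) x := rfl

lemma slots_node_ne (v : Fin (2 ^ L - 1)) :
    ε (lft (e.symm v)) ≠ ε (rgt (e.symm v)) := ε.injective.ne (lft_ne_rgt _)

/-- One step of `NodeSys.view`. -/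
def stp (N : NodeSys (XX κ n1) (2 ^ L - 1) Sd) (R : Finset (Fin (2 ^ L - 1)))
    (y : Fin (2 ^ L - 1) → Sd) (f : XX κ n1 →ₗ[ZMod 2] XX κ n1) (v : Fin (2 ^ L - 1)) :
    XX κ n1 →ₗ[ZMod 2] XX κ n1 := if v ∈ R then f else (N.op v (y v)).comp f

lemma op_zero_at (v : Fin (2 ^ L - 1)) (a : Sd) (x : XX κ n1) (j : κ → Fin n1)
    (hj : j (ε (rgt (e.symm v))) ≠ 0) : (treeSys ε e he E).op v a x j = 0 := by
  rw [op_eq, opl_apply, if_neg hj]

lemma op_preserve (v : Fin (2 ^ L - 1)) (a : Sd) (x : XX κ n1) (i : κ)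
    (hi : i ≠ ε (lft (e.symm v))) (hx : ∀ j : κ → Fin n1, j i ≠ 0 → x j = 0)
    (j : κ → Fin n1) (hj : j i ≠ 0) : (treeSys ε e he E).op v a x j = 0 := by
  by_cases hr : i = ε (rgt (e.symm v))
  · exact op_zero_at ε e he E v a x j (hr ▸ hj)
  · rw [op_eq, opl_apply]
    split_ifs with h
    · have h0 : slc (ε (lft (e.symm v))) (ε (rgt (e.symm v))) x j = 0 := by
        funext p
        rw [slc_apply, Pi.zero_apply]
        apply hx
        unfold set2
        rwa [Function.update_of_ne hr, Function.update_of_ne hi]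
      rw [h0, map_zero, Pi.zero_apply]
    · rfl

lemma foldl_preserve (R : Finset (Fin (2 ^ L - 1))) (y : Fin (2 ^ L - 1) → Sd)
    (l : List (Fin (2 ^ L - 1))) (i : κ) (hi : ∀ v ∈ l, i ≠ ε (lft (e.symm v)))
    (f : XX κ n1 →ₗ[ZMod 2] XX κ n1) (hf : ∀ x, ∀ j : κ → Fin n1, j i ≠ 0 → f x j = 0)
    (x : XX κ n1) (j : κ → Fin n1) (hj : j i ≠ 0) :
    l.foldl (stp (treeSys ε e he E) R y) f x j = 0 := by
  induction l generalizing f with
  | nil => exact hf x j hj
  | cons v l ih =>
    rw [List.foldl_cons]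
    refine ih (fun w hw => hi w (List.mem_cons_of_mem _ hw)) _ fun x' j' hj' => ?_
    unfold stp
    split_ifs
    · exact hf x' j' hj'
    · exact op_preserve ε e he E v (y v) (f x') i (hi v List.mem_cons_self)
        (fun j'' h'' => hf x' j'' h'') j' hj'

lemma foldl_zero_at (R : Finset (Fin (2 ^ L - 1))) (y : Fin (2 ^ L - 1) → Sd)
    (l : List (Fin (2 ^ L - 1))) (hl : l.Pairwise (· < ·))
    (f : XX κ n1 →ₗ[ZMod 2] XX κ n1) (v : Fin (2 ^ L - 1)) (hv : v ∈ l) (hvR : v ∉ R)
    (x : XX κ n1) (j : κ → Fin n1) (hj : j (ε (rgt (e.symm v))) ≠ 0) :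
    l.foldl (stp (treeSys ε e he E) R y) f x j = 0 := by
  induction l generalizing f with
  | nil => simp at hv
  | cons u l ih =>
    rw [List.foldl_cons]
    rw [List.pairwise_cons] at hl
    rcases List.mem_cons.1 hv with rfl | hv
    · refine foldl_preserve ε e he E R y l _ (fun w hw h => ?_) _ (fun x' j' hj' => ?_) x j hj
      · have h1 := he _ _ (below_of_rgt_eq_lft (ε.injective h))
        rw [e.apply_symm_apply, e.apply_symm_apply] at h1
        exact lt_asymm h1 (hl.1 w hw)
      · unfold stp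
        rw [if_neg hvR, LinearMap.comp_apply]
        exact op_zero_at ε e he E v (y v) _ j' hj'
    · exact ih hl.2 _ hv

/-- The functions supported on index tuples with index `0` at the slots of `A`. -/
def Zr (n1 : ℕ) [NeZero n1] (A : Finset κ) : Submodule (ZMod 2) (XX κ n1) where
  carrier := {f | ∀ j : κ → Fin n1, (∃ i ∈ A, j i ≠ 0) → f j = 0}
  add_mem' := by
    intro f g hf hg j hj
    rw [Pi.add_apply, hf j hj, hg j hj, add_zero]
  zero_mem' := fun _ _ => rfl
  smul_mem' := by
    intro c f hf j hj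
    rw [Pi.smul_apply, hf j hj, smul_zero]

omit [Fintype κ] [DecidableEq κ] in
lemma mem_Zr {A : Finset κ} {f : XX κ n1} :
    f ∈ Zr n1 A ↔ ∀ i ∈ A, ∀ j : κ → Fin n1, j i ≠ 0 → f j = 0 :=
  ⟨fun h i hi j hj => h j ⟨i, hi, hj⟩, fun h j ⟨i, hi, hj⟩ => h i hi j hj⟩

/-- The right slots of the nodes outside `R`. -/
def rsl (R : Finset (Fin (2 ^ L - 1))) : Finset κ :=
  (univ \ R).image fun v => ε (rgt (e.symm v))

omit [Fintype κ] in
lemma card_rsl (R : Finset (Fin (2 ^ L - 1))) : (rsl ε e R).card = 2 ^ L - 1 - R.card := by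
  unfold rsl
  rw [card_image_of_injective _ (f := fun v => ε (rgt (e.symm v)))
    (ε.injective.comp (rgt_injective.comp e.symm.injective)), card_sdiff, inter_univ, card_univ,
    Fintype.card_fin]

theorem range_view_le (R : Finset (Fin (2 ^ L - 1))) (y : Fin (2 ^ L - 1) → Sd) :
    LinearMap.range ((treeSys ε e he E).view R y) ≤ Zr n1 (rsl ε e R) := by
  rintro _ ⟨x, rfl⟩
  rw [mem_Zr]
  intro i hi j hj
  obtain ⟨v, hv, rfl⟩ := mem_image.1 hi
  exact foldl_zero_at ε e he E R y (List.finRange (2 ^ L - 1)) (List.pairwise_lt_finRange _)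
    LinearMap.id v (List.mem_finRange v) (mem_sdiff.1 hv).2 x j hj

lemma card_zero_tuples_le (A : Finset κ) :
    Fintype.card {j : κ → Fin n1 // ∀ i ∈ A, j i = 0} ≤ n1 ^ (Fintype.card κ - A.card) := by
  have h1 : Fintype.card {j : κ → Fin n1 // ∀ i ∈ A, j i = 0} ≤
      Fintype.card ({i : κ // i ∉ A} → Fin n1) := by
    refine Fintype.card_le_of_injective (fun j i => j.1 i.1) fun j j' h => ?_
    refine Subtype.ext (funext fun i => ?_)
    by_cases hi : i ∈ A
    · rw [j.2 i hi, j'.2 i hi]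
    · exact congrFun h ⟨i, hi⟩
  refine h1.trans (le_of_eq ?_)
  rw [Fintype.card_fun, Fintype.card_fin]
  congr 1
  rw [Fintype.card_subtype_compl, Fintype.card_coe]

/-- The dimension of the space of functions supported on such index tuples. -/
theorem finrank_Zr_le (A : Finset κ) :
    Module.finrank (ZMod 2) (Zr n1 A) ≤ n1 ^ (Fintype.card κ - A.card) := by
  let φ : Zr n1 A →ₗ[ZMod 2] ({j : κ → Fin n1 // ∀ i ∈ A, j i = 0} → ZMod 2) :=
    { toFun := fun f j => f.1 j.1
      map_add' := fun _ _ => rfl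
      map_smul' := fun _ _ => rfl }
  have hφ : Function.Injective φ := by
    intro f g h
    refine Subtype.ext (funext fun j => ?_)
    by_cases hj : ∀ i ∈ A, j i = 0
    · exact congrFun h ⟨j, hj⟩
    · push Not at hj
      rw [f.2 j hj, g.2 j hj]
  have h1 := LinearMap.finrank_le_finrank_of_injective hφ
  refine h1.trans ?_
  rw [Module.finrank_pi]
  exact card_zero_tuples_le A

lemma card_R_le (R : Finset (Fin (2 ^ L - 1))) (hR : (treeSys ε e he E).Up R)
    (h2 : ((treeSys ε e he E).minl R).card ≤ 2) : R.card ≤ 2 * L := by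
  have h1 : UpClosed (R.map e.symm.toEmbedding) := by
    intro v hv w hw
    rw [mem_map_equiv, Equiv.symm_symm] at hv ⊢
    refine hR _ hv ((mem_anc ε e he E).2 ?_)
    rwa [e.symm_apply_apply, e.symm_apply_apply]
  have h3 : mins (R.map e.symm.toEmbedding) =
      ((treeSys ε e he E).minl R).map e.symm.toEmbedding := by
    ext v
    rw [mem_mins, mem_map_equiv, Equiv.symm_symm, mem_map_equiv, Equiv.symm_symm]
    unfold NodeSys.minl
    rw [mem_filter]
    refine and_congr_right fun _ => ?_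
    constructor
    · intro h w hw hv
      rw [mem_anc, e.symm_apply_apply] at hv
      refine h (e.symm w) ?_ hv
      rw [mem_map_equiv, Equiv.symm_symm, e.apply_symm_apply]
      exact hw
    · intro h u hu hb
      rw [mem_map_equiv, Equiv.symm_symm] at hu
      refine h (e u) hu ((mem_anc ε e he E).2 ?_)
      rwa [e.symm_apply_apply, e.symm_apply_apply]
  have h4 := card_le_of_mins h1 (k := 2) (by rw [h3, card_map]; exact h2)
  rwa [card_map] at h4

/-- The dimension of the views with at most two root paths. -/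
theorem finrank_view_le (R : Finset (Fin (2 ^ L - 1))) (hR : (treeSys ε e he E).Up R)
    (h2 : ((treeSys ε e he E).minl R).card ≤ 2) (y : Fin (2 ^ L - 1) → Sd) :
    Module.finrank (ZMod 2) (LinearMap.range ((treeSys ε e he E).view R y)) ≤
      n1 ^ (2 * L + 2) := by
  refine (Submodule.finrank_mono (range_view_le ε e he E R y)).trans ?_
  refine (finrank_Zr_le _).trans ?_
  refine Nat.pow_le_pow_right (NeZero.pos n1) ?_
  rw [card_rsl, ← Fintype.card_congr ε]
  have h3 := card_R_le ε e he E R hR h2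
  have h4 : R.card ≤ 2 ^ L - 1 := by simpa using card_le_univ R
  have h5 : Fintype.card (Sl L) = 2 ^ L := by simp
  have h6 : 1 ≤ 2 ^ L := Nat.one_le_two_pow
  rw [h5]
  omega

end

end Vale.Agent.P318.H770
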