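import Vale.Agent.P318.H770.Inst
import Vale.Agent.P318.H937.Spec

/-!
# `SpecTREE` from the condenser and the extension property (P318, section 7)
-/

open Finset

set_option linter.unusedSectionVars false

namespace Vale.Agent.P318.H770

open Vale.Agent.P318.Op Vale.Agent.P318.Vec Vale.Agent.P318.Cond Vale.Agent.P318.H937

/-- The extension property of two operators on disjoint pairs of slots. -/
def OplExt : Prop := ∀ {κ : Type} [Fintype κ] [DecidableEq κ] {n1 : ℕ} [NeZero n1] {Sd : Type}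
  [Fintype Sd] [DecidableEq Sd] (E : Sd → EE n1) (n : ℕ),
  (∀ l r : κ, l ≠ r → ∀ x : XX κ n1, x ≠ 0 → ∀ S : Finset Sd,
    (∀ a ∈ S, opl l r (E a) x = 0) → S.card < n) →
  ∀ {l r l' r' : κ}, l ≠ r → l' ≠ r' → l ≠ l' → l ≠ r' → r ≠ l' → r ≠ r' →
  ∀ (Z : Finset Sd) (p : Sd → XX κ n1) (GB : Finset Sd), n ≤ GB.card →
    (∀ b ∈ GB, ∃ q, ∀ z ∈ Z, opl l r (E z) q = opl l' r' (E b) (p z)) →
    ∃ u, ∀ z ∈ Z, opl l r (E z) u = p z

section

variable {κ : Type} [Fintype κ] [DecidableEq κ] {n1 : ℕ} [NeZero n1] {Sd : Type} [Fintype Sd]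
  [DecidableEq Sd] {X : Type} [DecidableEq X]

lemma less_sub {X X' : Type} [DecidableEq X'] {T : Sd → X → X'} {S : Finset Sd} {W ℓ : ℕ}
    {θ : ℝ} (h : Less T S W ℓ) (hθ : (ℓ : ℝ) ≤ θ) (U : Finset X) (hU : U.card ≤ W) :
    ((S.card : ℝ) - θ) * U.card ≤ ∑ a ∈ S, ((U.image (T a)).card : ℝ) := by
  have h1 := h U hU
  have h2 : (S.card : ℝ) * U.card ≤ ∑ y ∈ S, ((U.image (T y)).card : ℝ) + ℓ * U.card := by
    exact_mod_cast h1
  have h3 : (ℓ : ℝ) * U.card ≤ θ * U.card := mul_le_mul_of_nonneg_right hθ (Nat.cast_nonneg _)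
  linarith

/-- Losslessness on `Bool → X` gives losslessness on `X × X`. -/
lemma less_prod {T : Sd → X → X} {S : Finset Sd} {W ℓ : ℕ}
    (h : Less (fun y (x : Bool → X) => fun b => T y (x b)) S W ℓ) :
    Less (fun y => Prod.map (T y) (T y)) S W ℓ := by
  classical
  let φ : X × X → (Bool → X) := fun p b => if b then p.1 else p.2
  have hφ : Function.Injective φ := by
    intro p q hpq
    exact Prod.ext (congrFun hpq true) (congrFun hpq false)
  intro U hU
  have h1 := h (U.image φ) (card_image_le.trans hU)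
  rw [card_image_of_injective _ hφ] at h1
  refine h1.trans (Nat.add_le_add_right (sum_le_sum fun y _ => ?_) _)
  have h2 : (U.image φ).image (fun x : Bool → X => fun b => T y (x b)) =
      (U.image (Prod.map (T y) (T y))).image φ := by
    rw [image_image, image_image]
    refine image_congr fun p _ => ?_
    funext b
    simp only [Function.comp_apply, φ]
    cases b <;> simp
  rw [h2]
  exact card_image_le

end

/-- `SpecTREE` from the extension property. -/
theorem specTREE_of_ext (hext : OplExt) : SpecTREE := by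
  intro e m' n Lv he hm hn hLv hmn
  have hn1 : m' * e ≠ 0 := Nat.mul_ne_zero (by omega) (by omega)
  have : NeZero (m' * e) := ⟨hn1⟩
  have hsq : (m' * e) * (m' * e) ≤ n * e := by
    calc (m' * e) * (m' * e) = (m' ^ 2 * e) * e := by ring
      _ ≤ n * e := Nat.mul_le_mul_right _ hmn
  obtain ⟨C, hC1, hC2⟩ := exists_cond_sq e n m' (m' * e) (by omega) hn hm rfl hsq
  obtain ⟨nu, hnu⟩ := exists_numbering' Lv
  have hcard : Fintype.card (Sl Lv) = Fintype.card (Fin (2 ^ Lv)) := by simp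
  let ε : Sl Lv ≃ Fin (2 ^ Lv) := Fintype.equivOfCardEq hcard
  have hkill : ∀ l r : Fin (2 ^ Lv), l ≠ r → ∀ x : XX (Fin (2 ^ Lv)) (m' * e), x ≠ 0 →
      ∀ S : Finset (Fin (2 ^ e)), (∀ a ∈ S, opl l r (C a) x = 0) → S.card < n := by
    intro l r hlr x hx S hS
    have h1 := opl_zero_card C (n - 1) hC2 l r hlr x hx
    have h2 : S ⊆ univ.filter fun y => opl l r (C y) x = 0 := fun a ha =>
      mem_filter.2 ⟨mem_univ _, hS a ha⟩
    have h3 := card_le_card h2
    omega
  have hloss : (((2 * m' + 1) * ((n - 1) * m') : ℕ) : ℝ) ≤ (2 * m' + 1) * (n * m') := by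
    push_cast
    have h1 : ((n - 1 : ℕ) : ℝ) ≤ n := by exact_mod_cast Nat.sub_le n 1
    have h2 : (0 : ℝ) ≤ m' := Nat.cast_nonneg _
    have h3 : ((n - 1 : ℕ) : ℝ) * m' ≤ n * m' := mul_le_mul_of_nonneg_right h1 h2
    exact mul_le_mul_of_nonneg_left h3 (by positivity)
  refine ⟨treeSys ε nu hnu C, ⟨?_, ?_, ?_, ?_, ?_⟩⟩
  · intro v S U hU
    exact less_sub (opl_less C S (2 ^ m') _ (fun J _ => hC1 S J) _ _
      (slots_node_ne ε nu v)) hloss U hU
  · intro v S U hU
    exact less_sub (less_prod (opl_less_pi C S (2 ^ m') _ (fun J _ => hC1 S J) _ _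
      (slots_node_ne ε nu v) Bool)) hloss U hU
  · intro v x hx S hS
    exact hkill _ _ (slots_node_ne ε nu v) x hx S hS
  · intro v w hvw h1 h2 Z p GB hGB h
    have h3 : ¬ below (nu.symm w) (nu.symm v) := fun h => h1 ((mem_anc ε nu hnu C).2 h)
    have h4 : ¬ below (nu.symm v) (nu.symm w) := fun h => h2 ((mem_anc ε nu hnu C).2 h)
    have h5 : nu.symm v ≠ nu.symm w := fun h => hvw (nu.symm.injective h)
    obtain ⟨ha, hb, hc, hd⟩ := slots_ne h4 h3 h5
    exact hext C n hkill (slots_node_ne ε nu v) (slots_node_ne ε nu w)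
      (ε.injective.ne ha) (ε.injective.ne hb) (ε.injective.ne hc) (ε.injective.ne hd)
      Z p GB hGB h
  · intro R hR h2 y
    exact finrank_view_le ε nu hnu C R hR h2 y

end Vale.Agent.P318.H770
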